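/-
S0066 (row 47), construction-independent glue: the uniform blow-up of a host matrix.
`blowup K A'` replaces every line of `A'` by `K` consecutive identical lines.
* `dist_blowup`  : a distance bound `d` to pattern-freeness becomes `K^2 * d`;
* `orderedCopyCount_blowup_le` : if the pattern has pairwise distinct rows and pairwise distinct
  columns, the number of ordered copies grows at most by the factor `K^k * K^k`.
Mathlib + Prelude (`Def_OrderedMatrix`) + `Helper60.OrdMat.Generic`.
-/
import Crest.Agent.Helper60.OrdMat.Generic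

set_option autoImplicit false

namespace Crest.Agent.Helper71.OrdMat

open Crest.CombinatoricsR.OrderedMatrix

/-- The uniform blow-up: line `i` of the blow-up is line `i / K` of the original. -/
def blowup {m : ℕ} (K : ℕ) (A' : Fin m → Fin m → Bool) : Fin (m * K) → Fin (m * K) → Bool :=
  fun i j => A' i.divNat j.divNat

theorem blowup_apply {m : ℕ} (K : ℕ) (A' : Fin m → Fin m → Bool) (i j : Fin m) (s t : Fin K) :
    blowup K A' (finProdFinEquiv (i, s)) (finProdFinEquiv (j, t)) = A' i j := by
  unfold blowup
  have h1 : (finProdFinEquiv (i, s)).divNat = i :=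
    congrArg Prod.fst (finProdFinEquiv.symm_apply_apply (i, s))
  have h2 : (finProdFinEquiv (j, t)).divNat = j :=
    congrArg Prod.fst (finProdFinEquiv.symm_apply_apply (j, t))
  rw [h1, h2]

theorem strictMono_section {m K : ℕ} (s : Fin K) :
    StrictMono (fun i : Fin m => finProdFinEquiv (i, s)) := by
  intro i i' h
  rw [Fin.lt_def]
  simp only [finProdFinEquiv_apply_val]
  have : (i : ℕ) < i' := h
  have hK : K * (i : ℕ) < K * (i' : ℕ) := Nat.mul_lt_mul_of_pos_left this s.pos
  omega

theorem divNat_mono {m K : ℕ} : Monotone (fun i : Fin (m * K) => i.divNat) := by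
  intro i j h
  rw [Fin.le_def]
  exact Nat.div_le_div_right h

/-- **Distance under blow-up.** If every `H`-free matrix differs from `A'` in at least `d` cells,
then every `H`-free matrix differs from `blowup K A'` in at least `K^2 * d` cells. -/
theorem dist_blowup {k m : ℕ} (K : ℕ) (H : Fin k → Fin k → Bool) (A' : Fin m → Fin m → Bool)
    (d : ℕ)
    (hd : ∀ B' : Fin m → Fin m → Bool, orderedCopyCount H B' = 0 →
      d ≤ (Finset.univ.filter (fun rc : Fin m × Fin m => A' rc.1 rc.2 ≠ B' rc.1 rc.2)).card)
    (B : Fin (m * K) → Fin (m * K) → Bool) (hB : orderedCopyCount H B = 0) :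
    K ^ 2 * d ≤ (Finset.univ.filter (fun rc : Fin (m * K) × Fin (m * K) =>
      blowup K A' rc.1 rc.2 ≠ B rc.1 rc.2)).card := by
  classical
  set e : (Fin K × Fin K) × (Fin m × Fin m) ≃ Fin (m * K) × Fin (m * K) :=
    (Equiv.prodComm _ _).trans ((Equiv.prodProdProdComm (Fin m) (Fin m) (Fin K) (Fin K)).trans
      (finProdFinEquiv.prodCongr finProdFinEquiv)) with he
  have hsec : ∀ st : Fin K × Fin K,
      d ≤ (Finset.univ.filter (fun rc : Fin m × Fin m =>
        A' rc.1 rc.2 ≠ B (finProdFinEquiv (rc.1, st.1)) (finProdFinEquiv (rc.2, st.2)))).card :=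
    fun st => hd _ (Crest.Agent.Helper60.OrdMat.free_comp H B _ _ (strictMono_section st.1)
      (strictMono_section st.2) hB)
  have hsum : (Finset.univ.filter (fun rc : Fin (m * K) × Fin (m * K) =>
        blowup K A' rc.1 rc.2 ≠ B rc.1 rc.2)).card
      = ∑ st : Fin K × Fin K, (Finset.univ.filter (fun rc : Fin m × Fin m =>
        A' rc.1 rc.2 ≠ B (finProdFinEquiv (rc.1, st.1)) (finProdFinEquiv (rc.2, st.2)))).card := by
    rw [Finset.card_filter]
    simp_rw [Finset.card_filter]
    rw [← Fintype.sum_prod_type']
    refine (Fintype.sum_equiv e _ _ (fun x => ?_)).symm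
    obtain ⟨⟨s, t⟩, ⟨i, j⟩⟩ := x
    simp only [he, Equiv.trans_apply, Equiv.prodComm_apply, Prod.swap_prod_mk,
      Equiv.prodProdProdComm_apply, Equiv.prodCongr_apply, Prod.map_apply, blowup_apply]
  rw [hsum]
  calc K ^ 2 * d = ∑ _st : Fin K × Fin K, d := by
        simp [Finset.sum_const, Finset.card_univ, Fintype.card_prod, sq]
    _ ≤ _ := Finset.sum_le_sum (fun st _ => hsec st)

/-- **Copies under blow-up.** If the rows of `H` are pairwise distinct and the columns of `H`
are pairwise distinct, every ordered copy in the blow-up projects to an ordered copy in the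
original, so the count grows at most by `K^k * K^k`. -/
theorem orderedCopyCount_blowup_le {k m : ℕ} (K : ℕ) (H : Fin k → Fin k → Bool)
    (hrow : Function.Injective H) (hcol : Function.Injective (fun j i => H i j))
    (A' : Fin m → Fin m → Bool) :
    orderedCopyCount H (blowup K A') ≤ K ^ k * K ^ k * orderedCopyCount H A' := by
  classical
  unfold orderedCopyCount
  set S := {rc : (Fin k → Fin (m * K)) × (Fin k → Fin (m * K)) //
    StrictMono rc.1 ∧ StrictMono rc.2 ∧ ∀ i j : Fin k, blowup K A' (rc.1 i) (rc.2 j) = H i j}
  set S' := {rc : (Fin k → Fin m) × (Fin k → Fin m) //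
    StrictMono rc.1 ∧ StrictMono rc.2 ∧ ∀ i j : Fin k, A' (rc.1 i) (rc.2 j) = H i j}
  -- projection of a copy
  have hproj : ∀ x : S, StrictMono (fun i => (x.1.1 i).divNat) ∧
      StrictMono (fun j => (x.1.2 j).divNat) := by
    rintro ⟨⟨rows, cols⟩, hr, hc, hA⟩
    constructor
    · intro i i' hii'
      have hle : (rows i).divNat ≤ (rows i').divNat := divNat_mono (hr hii').le
      refine lt_of_le_of_ne hle (fun heq => ?_)
      have heq' : (rows i).divNat = (rows i').divNat := heq
      have : H i = H i' := by
        funext j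
        rw [← hA i j, ← hA i' j]
        show A' (rows i).divNat (cols j).divNat = A' (rows i').divNat (cols j).divNat
        rw [heq']
      exact hii'.ne (hrow this)
    · intro j j' hjj'
      have hle : (cols j).divNat ≤ (cols j').divNat := divNat_mono (hc hjj').le
      refine lt_of_le_of_ne hle (fun heq => ?_)
      have heq' : (cols j).divNat = (cols j').divNat := heq
      have : (fun i => H i j) = (fun i => H i j') := by
        funext i
        rw [← hA i j, ← hA i j']
        show A' (rows i).divNat (cols j).divNat = A' (rows i).divNat (cols j').divNat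
        rw [heq']
      exact hjj'.ne (hcol this)
  let f : S → S' × ((Fin k → Fin K) × (Fin k → Fin K)) := fun x =>
    (⟨(fun i => (x.1.1 i).divNat, fun j => (x.1.2 j).divNat), (hproj x).1, (hproj x).2,
        fun i j => x.2.2.2 i j⟩,
      (fun i => (x.1.1 i).modNat, fun j => (x.1.2 j).modNat))
  have hf : Function.Injective f := by
    rintro ⟨⟨rows, cols⟩, h1⟩ ⟨⟨rows', cols'⟩, h2⟩ hxy
    have hr1 : (fun i => (rows i).divNat) = (fun i => (rows' i).divNat) :=
      congrArg (fun p => p.1.1.1) hxy
    have hc1 : (fun j => (cols j).divNat) = (fun j => (cols' j).divNat) :=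
      congrArg (fun p => p.1.1.2) hxy
    have hr2 : (fun i => (rows i).modNat) = (fun i => (rows' i).modNat) :=
      congrArg (fun p => p.2.1) hxy
    have hc2 : (fun j => (cols j).modNat) = (fun j => (cols' j).modNat) :=
      congrArg (fun p => p.2.2) hxy
    apply Subtype.ext
    apply Prod.ext
    · funext i
      apply finProdFinEquiv.symm.injective
      exact Prod.ext (congrFun hr1 i) (congrFun hr2 i)
    · funext j
      apply finProdFinEquiv.symm.injective
      exact Prod.ext (congrFun hc1 j) (congrFun hc2 j)
  have hcard := Fintype.card_le_of_injective f hf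
  rw [Fintype.card_prod, Fintype.card_prod, Fintype.card_fun, Fintype.card_fin,
    Fintype.card_fin] at hcard
  calc Fintype.card S ≤ Fintype.card S' * (K ^ k * K ^ k) := hcard
    _ = K ^ k * K ^ k * Fintype.card S' := Nat.mul_comm _ _

end Crest.Agent.Helper71.OrdMat
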